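import Vale.Agent.N313.Main

/-! Derandomization of promise problems for every space bound above `log n`, and deterministic
approximation of acceptance probabilities in space `O(S + log T + log n + log (1 / ε))`. -/

namespace Vale.Agent.Results.P313.A0Space

open Vale.Agent.Lib.Space Vale.Agent.P313 Vale.Agent.N313

theorem result (A : Type) [Finite A] :
    (∀ (s : ℕ → ℝ) (a b : ℝ), (∃ N : ℕ, ∀ n ≥ N, Real.log n ≤ s n) → 0 ≤ a → a < b → b ≤ 1 →
      ∀ Yes No : Language A, RandSolves s a b Yes No ↔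
        ∃ L ∈ SPACE A s, (∀ x ∈ Yes, x ∈ L) ∧ ∀ x ∈ No, x ∉ L) ∧
    ∀ (M : RandTape A) (c : ℕ),
      ∃ (D : MultiTape (Option A)) (i : D.Tape) (e : D.Sym) (C : ℕ),
        ∀ (x : List A) (k S T : ℕ) (y : List (Option A)) (ε : ℝ) (Z : ℕ),
          y = x.map some ++ List.replicate k none → ε = 1 / (2 ^ k * (x.length + 2) ^ c) →
          Z = 2 ^ (S + k) * (T + 1) * (x.length + 2) → 1 - ε ≤ okProb M x S T →
          D.UsesAtMost y (C * Real.log Z) ∧ D.act y (D.conf y (Z ^ C)) = none ∧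
            |out D i e (D.conf y (Z ^ C)) - M.accProb x T| ≤ 3 * ε := by
  refine ⟨fun s a b hs ha hab hb Yes No => ⟨solves hs hab, solves_of ha hb⟩, fun M c => ?_⟩
  obtain ⟨D, i, e, C, hD⟩ := approx M c
  refine ⟨D, i, e, C, ?_⟩
  rintro x k S T y ε Z rfl rfl rfl h1
  rw [mul_one_div]
  exact hD x k S T h1

end Vale.Agent.Results.P313.A0Space
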