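import Vale.Agent.N313M.Parse

/-! Machines with binary work tapes and an output tape. Randomized
computations of functions and of solutions of search problems are simulated deterministically in
logarithmic space. Powers, inverses and stationary projections of matrices are approximated. -/

namespace Vale.Agent.Results.P313.A0Transducers

open Vale.Agent.N313M

theorem result :
    (∀ (A : Type) [Finite A] (M : Machine A), M.LogSpace → M.PolyTime → ∀ c : ℕ,
      ∃ D₁ D₂ : Machine A, FL D₁ ∧ FL D₂ ∧ ∀ x : List A,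
        (∀ d y, 1 / 2 + 1 / ((x.length : ℝ) + 2) ^ c ≤ prob (fun ρ => M.Ends x ρ d y) →
          ∀ ρ, D₁.Ends x ρ d y) ∧
        (1 / ((x.length : ℝ) + 2) ^ c ≤ prob (fun ρ => ∃ y, M.Ends x ρ true y) →
          ∃ r y, M.Ends x r true y ∧ ∀ ρ, D₂.Ends x ρ true y)) ∧
    ∃ D₁ D₂ D₃ : Machine (Option Bool), FL D₁ ∧ FL D₂ ∧ FL D₃ ∧
      ∀ (n : ℕ) (P : Matrix (Fin n) (Fin n) ℚ) (i j : Fin n) (T m : ℕ), (∀ u, ∑ v, |P u v| ≤ 1) →
        Approx D₁ (code P i j T m) (m * (P ^ T) i j) ∧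
        ∀ G E : Matrix (Fin n) (Fin n) ℚ, (1 - P) * G = 1 - E → P * E = E → E * G = 0 →
          (∀ u v, |G u v| ≤ T) →
          Approx D₂ (code P i j T m) (m * G i j) ∧ Approx D₃ (code P i j T m) (m * E i j) := by
  refine ⟨fun A _ M hs ht c => ?_, ?_⟩
  · obtain ⟨D₁, h1, h2⟩ := function hs ht c
    obtain ⟨D₂, h3, h4⟩ := search hs ht c
    exact ⟨D₁, D₂, h1, h3, fun x => ⟨h2 x, h4 x⟩⟩
  · obtain ⟨D₁, h1, h2⟩ := exists_pow
    obtain ⟨D₂, h3, h4⟩ := exists_inv
    obtain ⟨D₃, h5, h6⟩ := exists_proj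
    exact ⟨D₁, D₂, D₃, h1, h3, h5, fun n P i j T m hP => ⟨h2 n P i j T m hP,
      fun G E a b c d => ⟨h4 n P G E i j T m hP a b c d, h6 n P G E i j T m hP a b d⟩⟩⟩

end Vale.Agent.Results.P313.A0Transducers
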